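import Vale.Agent.P321.Asym

namespace Vale.Agent.Results.P321.Main

open Finset Vale.Agent.P321

/-- The trace of `x` when exactly the positions `i` with `s i = true` survive. -/
def trace {n : ℕ} (x s : Fin n → Bool) : List Bool := ((List.finRange n).filter s).map x

/-- Probability of the survival pattern `s`: each position is deleted independently with
probability `q`. -/
def weight (q : ℝ) {n : ℕ} (s : Fin n → Bool) : ℝ := ∏ i, if s i then 1 - q else q

/-- Probability that the randomized estimator `est`, fed `m` independent traces of `x`,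
outputs `x`. -/
noncomputable def success (q : ℝ) {n m : ℕ} (est : (Fin m → List Bool) → PMF (Fin n → Bool))
    (x : Fin n → Bool) : ℝ :=
  ∑ S : Fin m → Fin n → Bool, (∏ j, weight q (S j)) * (est (fun j => trace x (S j)) x).toReal

/-- Worst-case sample complexity of trace reconstruction. -/
noncomputable def T (q : ℝ) (n : ℕ) : ℕ :=
  sInf {m : ℕ | ∃ est : (Fin m → List Bool) → PMF (Fin n → Bool), ∀ x, 2 / 3 ≤ success q est x}

lemma trace_cons {n : ℕ} (x : Fin (n + 1) → Bool) (b : Bool) (s : Fin n → Bool) :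
    trace x (Fin.cons b s) = (bif b then [x 0] else []) ++ trace (fun i => x i.succ) s := by
  unfold trace
  rw [List.finRange_succ, List.filter_cons, List.filter_map]
  cases b <;> simp [Function.comp_def]

lemma weight_cons (q : ℝ) {n : ℕ} (b : Bool) (s : Fin n → Bool) :
    weight q (Fin.cons b s : Fin (n + 1) → Bool) = (bif b then 1 - q else q) * weight q s := by
  unfold weight
  rw [Fin.prod_univ_succ]
  cases b <;> simp

lemma sum_cons {α : Type} [Fintype α] {n : ℕ} (f : (Fin (n + 1) → α) → ℝ) :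
    ∑ s, f s = ∑ b, ∑ s : Fin n → α, f (Fin.cons b s) := by
  rw [← (Fin.consEquiv fun _ => α).sum_comp, Fintype.sum_prod_type]; rfl

lemma ev_phi (q : ℝ) {n : ℕ} (x : Fin n → Bool) (g : List Bool → ℝ) :
    ev (phi q (List.ofFn x)) (fun w => g (FreeMonoid.toList w)) =
      ∑ s, weight q s * g (trace x s) := by
  induction n generalizing g with
  | zero => simp [phi_nil, weight, trace]
  | succ n ih =>
    rw [List.ofFn_succ, phi_cons, ev_mul, lt, ev_add, ev_smul, ev_smul, ev_one, ev_single,
      sum_cons, Fintype.sum_bool]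
    simp only [trace_cons, weight_cons, cond_true, cond_false, one_mul, FreeMonoid.toList_mul,
      FreeMonoid.toList_of, List.nil_append, mul_assoc, ← Finset.mul_sum]
    rw [ih (fun i => x i.succ) g, ih (fun i => x i.succ) fun l => g ([x 0] ++ l), add_comm]

lemma weight_nonneg {q : ℝ} (h0 : 0 ≤ q) (h1 : q ≤ 1) {n : ℕ} (s : Fin n → Bool) :
    0 ≤ weight q s :=
  Finset.prod_nonneg fun i _ => by split_ifs <;> linarith

lemma weight_sum (q : ℝ) (n : ℕ) : ∑ s : Fin n → Bool, weight q s = 1 := by
  induction n with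
  | zero => simp [weight]
  | succ n ih =>
    rw [sum_cons, Fintype.sum_bool]
    simp only [weight_cons, cond_true, cond_false, ← Finset.mul_sum, ih]; ring

lemma avg_abs_le {ι : Type} [Fintype ι] {w f : ι → ℝ} {c : ℝ} (h0 : ∀ i, 0 ≤ w i)
    (h1 : ∑ i, w i = 1) (hf : ∀ i, |f i| ≤ c) : |∑ i, w i * f i| ≤ c := by
  refine (Finset.abs_sum_le_sum_abs _ _).trans ?_
  calc ∑ i, |w i * f i| ≤ ∑ i, w i * c := Finset.sum_le_sum fun i _ => by
        rw [abs_mul, abs_of_nonneg (h0 i)]; exact mul_le_mul_of_nonneg_left (hf i) (h0 i)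
    _ = c := by rw [← Finset.sum_mul, h1, one_mul]

lemma prod_weight_sum (q : ℝ) (n m : ℕ) :
    ∑ S : Fin m → Fin n → Bool, ∏ j, weight q (S j) = 1 := by
  induction m with
  | zero => simp
  | succ m ih =>
    rw [sum_cons]
    simp only [Fin.prod_univ_succ, Fin.cons_zero, Fin.cons_succ, ← Finset.mul_sum, ih, mul_one,
      weight_sum]

lemma hybrid {q ε : ℝ} (h0 : 0 ≤ q) (h1 : q ≤ 1) {n : ℕ} {x y : Fin n → Bool}
    (h : L1 (phi q (List.ofFn x) - phi q (List.ofFn y)) ε) (m : ℕ)
    (f : (Fin m → List Bool) → ℝ) (hf : ∀ t, |f t| ≤ 1) :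
    |∑ S : Fin m → Fin n → Bool, (∏ j, weight q (S j)) * f (fun j => trace x (S j)) -
      ∑ S : Fin m → Fin n → Bool, (∏ j, weight q (S j)) * f (fun j => trace y (S j))| ≤ m * ε := by
  induction m with
  | zero =>
    have : ∀ S : Fin 0 → Fin n → Bool, (fun j => trace x (S j)) = fun j => trace y (S j) :=
      fun S => Subsingleton.elim _ _
    simp [this]
  | succ m ih =>
    have e : ∀ z : Fin n → Bool, ∑ S : Fin (m + 1) → Fin n → Bool,
        (∏ j, weight q (S j)) * f (fun j => trace z (S j)) = ∑ s, weight q s *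
        ∑ S : Fin m → Fin n → Bool, (∏ j, weight q (S j)) *
          f (Fin.cons (trace z s) fun j => trace z (S j)) := by
      intro z
      rw [sum_cons]
      refine Finset.sum_congr rfl fun s _ => ?_
      rw [Finset.mul_sum]
      refine Finset.sum_congr rfl fun S _ => ?_
      have : (fun j => trace z ((Fin.cons s S : Fin (m + 1) → Fin n → Bool) j)) =
          Fin.cons (trace z s) fun j => trace z (S j) := by
        funext j
        refine Fin.cases rfl (fun _ => rfl) j
      rw [Fin.prod_univ_succ, mul_assoc, this]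
      rfl
    let G : List Bool → ℝ := fun l => ∑ S : Fin m → Fin n → Bool, (∏ j, weight q (S j)) *
      f (Fin.cons l fun j => trace y (S j))
    have hG : ∀ l, |G l| ≤ 1 := fun l =>
      avg_abs_le (fun S => Finset.prod_nonneg fun j _ => weight_nonneg h0 h1 _)
        (prod_weight_sum q n m) fun S => hf _
    have h2 := h (fun w => G (FreeMonoid.toList w)) fun w => hG _
    rw [ev_sub, ev_phi, ev_phi] at h2
    have h3 := avg_abs_le (weight_nonneg h0 h1) (weight_sum q n) fun s =>
      ih (fun t => f (Fin.cons (trace x s) t)) fun t => hf _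
    simp only [mul_sub, Finset.sum_sub_distrib] at h3
    rw [e, e]
    have := abs_sub_le (∑ s, weight q s * ∑ S : Fin m → Fin n → Bool, (∏ j, weight q (S j)) *
      f (Fin.cons (trace x s) fun j => trace x (S j))) (∑ s, weight q s * G (trace x s))
      (∑ s, weight q s * G (trace y s))
    push_cast
    linarith

lemma pmf_two {α : Type} (p : PMF α) {x y : α} (h : x ≠ y) : (p x).toReal + (p y).toReal ≤ 1 := by
  classical
  rw [← ENNReal.toReal_add (p.apply_ne_top x) (p.apply_ne_top y)]
  refine ENNReal.toReal_le_of_le_ofReal zero_le_one ?_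
  rw [ENNReal.ofReal_one, ← p.tsum_coe, ← Finset.sum_pair h]
  exact ENNReal.sum_le_tsum _

lemma lower {q ε : ℝ} (h0 : 0 ≤ q) (h1 : q ≤ 1) {n m : ℕ} {x y : Fin n → Bool} (hne : x ≠ y)
    (h : L1 (phi q (List.ofFn x) - phi q (List.ofFn y)) ε)
    (est : (Fin m → List Bool) → PMF (Fin n → Bool)) (hs : ∀ z, 2 / 3 ≤ success q est z) :
    1 / 3 ≤ m * ε := by
  have h2 := hybrid h0 h1 h m (fun t => (est t x).toReal) fun t => by
    have := pmf_two (est t) hne
    have := ENNReal.toReal_nonneg (a := est t y)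
    rw [abs_of_nonneg ENNReal.toReal_nonneg]; linarith
  have h3 := hs x
  have h4 := hs y
  unfold success at h3 h4
  have h5 : ∑ S : Fin m → Fin n → Bool, (∏ j, weight q (S j)) *
      (est (fun j => trace y (S j)) x).toReal + ∑ S : Fin m → Fin n → Bool,
      (∏ j, weight q (S j)) * (est (fun j => trace y (S j)) y).toReal ≤ 1 := by
    rw [← Finset.sum_add_distrib, ← prod_weight_sum q n m]
    refine Finset.sum_le_sum fun S _ => ?_
    rw [← mul_add]
    exact mul_le_of_le_one_right (Finset.prod_nonneg fun j _ => weight_nonneg h0 h1 _)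
      (pmf_two _ hne)
  have := (abs_le.1 h2).2
  linarith

lemma trace_full {n : ℕ} (x s : Fin n → Bool) (h : (trace x s).length = n) :
    trace x s = List.ofFn x := by
  unfold trace at h ⊢
  rw [List.length_map] at h
  rw [List.filter_eq_self.2 (List.length_filter_eq_length_iff.1 (by simpa using h)),
    List.ofFn_eq_map]

lemma miss_sum (q : ℝ) (n m : ℕ) : ∑ S : Fin m → Fin n → Bool,
    ∏ j, (if S j = fun _ => true then 0 else weight q (S j)) = (1 - (1 - q) ^ n) ^ m := by
  have e : ∑ s : Fin n → Bool, (if s = fun _ => true then 0 else weight q s) = 1 - (1 - q) ^ n := by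
    have : ∀ s : Fin n → Bool, (if s = fun _ => true then 0 else weight q s) =
        weight q s - if s = fun _ => true then weight q s else 0 := fun s => by
      split_ifs <;> simp
    simp only [this, Finset.sum_sub_distrib, weight_sum, Finset.sum_ite_eq', Finset.mem_univ,
      if_true]
    simp [weight]
  induction m with
  | zero => simp
  | succ m ih =>
    rw [sum_cons]
    simp only [Fin.prod_univ_succ, Fin.cons_zero, Fin.cons_succ, ← Finset.mul_sum, ih,
      ← Finset.sum_mul, e, pow_succ']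

lemma exists_est {q : ℝ} (h0 : 0 ≤ q) (h1 : q < 1) (n : ℕ) : ∃ m : ℕ,
    ∃ est : (Fin m → List Bool) → PMF (Fin n → Bool), ∀ x, 2 / 3 ≤ success q est x := by
  classical
  have hp : 0 < (1 - q) ^ n := pow_pos (by linarith) n
  obtain ⟨m, hm⟩ := exists_pow_lt_of_lt_one (by norm_num : (0 : ℝ) < 1 / 3)
    (by linarith : 1 - (1 - q) ^ n < 1)
  refine ⟨m, fun t => PMF.pure (if h : ∃ z : Fin n → Bool, ∃ j, t j = List.ofFn z then h.choose
    else fun _ => true), fun x => ?_⟩
  rw [← miss_sum] at hm
  have h2 := prod_weight_sum q n m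
  refine le_trans (by linarith : (2 : ℝ) / 3 ≤ ∑ S : Fin m → Fin n → Bool, ∏ j, weight q (S j) -
    ∑ S : Fin m → Fin n → Bool, ∏ j, (if S j = fun _ => true then 0 else weight q (S j))) ?_
  rw [← Finset.sum_sub_distrib]
  refine Finset.sum_le_sum fun S _ => ?_
  by_cases hS : ∃ j, S j = fun _ => true
  · obtain ⟨j, hj⟩ := hS
    have h3 : ∃ z : Fin n → Bool, ∃ j, trace x (S j) = List.ofFn z :=
      ⟨x, j, trace_full _ _ (by rw [hj]; simp [trace])⟩
    have h4 : h3.choose = x := by
      obtain ⟨i, hi⟩ := h3.choose_spec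
      rw [trace_full _ _ (by rw [hi]; simp)] at hi
      exact (List.ofFn_injective hi).symm
    rw [Finset.prod_eq_zero (f := fun j => if S j = fun _ => true then 0 else weight q (S j))
      (Finset.mem_univ j) (if_pos hj)]
    simp only [dif_pos h3, h4, PMF.pure_apply_self]
    simp
  · push Not at hS
    rw [Finset.prod_congr rfl fun j _ => if_neg (hS j), sub_self]
    exact mul_nonneg (Finset.prod_nonneg fun j _ => weight_nonneg h0 h1.le _) ENNReal.toReal_nonneg

theorem result : ∃ c : ℝ, 0 < c ∧ ∀ q : ℝ, 0 < q → q < 1 → ∃ n₀ : ℕ, ∀ n ≥ n₀,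
    (n : ℝ) ^ (c * Real.log (Real.log n)) ≤ T q n := by
  refine ⟨1 / 8000, by norm_num, fun q h0 h1 => ?_⟩
  obtain ⟨n₀, h⟩ := close_words' h0 h1.le
  refine ⟨n₀, fun n hn => ?_⟩
  obtain ⟨x, y, ε, hx, hy, hne, hl, hε⟩ := h n hn
  obtain ⟨est, hs⟩ : T q n ∈ {m : ℕ | ∃ est : (Fin m → List Bool) → PMF (Fin n → Bool),
    ∀ x, 2 / 3 ≤ success q est x} := Nat.sInf_mem (exists_est h0.le h1 n)
  obtain ⟨x, rfl⟩ : ∃ z : Fin n → Bool, List.ofFn z = x := by subst hx; exact ⟨_, List.ofFn_get x⟩
  obtain ⟨y, rfl⟩ : ∃ z : Fin n → Bool, List.ofFn z = y := by subst hy; exact ⟨_, List.ofFn_get y⟩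
  have h2 := lower h0.le h1.le (fun e => hne (by rw [e])) hl est hs
  have h3 : 0 ≤ (n : ℝ) ^ (1 / 8000 * Real.log (Real.log n)) := by positivity
  have h4 : (0 : ℝ) ≤ T q n := Nat.cast_nonneg _
  nlinarith [mul_le_mul_of_nonneg_left h2 h3, mul_le_mul_of_nonneg_left hε h4]

end Vale.Agent.Results.P321.Main
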